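import Mathlib
import Vale.Agent.P007.Main

/-!
For every composite degree, packets of maximal orders of totally real fields need not
equidistribute in the space of unimodular lattices.
-/

namespace Vale.Agent.Results.P007.CompositeDegreeFailure

open MeasureTheory Filter Topology NumberField Vale.Agent.P007

theorem result (n : ℕ) (hn : 4 ≤ n) (hcomp : ¬ n.Prime) :
    ∃ (K : ℕ → IntermediateField ℚ ℂ) (hK : ∀ i, NumberField (K i)),
      (∀ i, IsTotallyReal (K i) ∧ Module.finrank ℚ (K i) = n) ∧
      Tendsto (fun i => |@NumberField.discr (K i) _ (hK i)|) atTop atTop ∧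
      ∃ f : LatticeSpace n → ℝ, Continuous f ∧ HasCompactSupport f ∧ (∀ x, 0 ≤ f x) ∧
        (∃ x, 0 < f x) ∧
        ∀ σ : ∀ i, Fin n → (↥(K i) →+* ℝ), (∀ i, Function.Bijective (σ i)) →
          (∀ i, (@packet n (K i) _ (hK i) (σ i)).Nonempty ∧
            ∀ x ∈ @packet n (K i) _ (hK i) (σ i), f x = 0) ∧
          ∀ [MeasurableSpace (LatticeSpace n)] [BorelSpace (LatticeSpace n)]
            (m : Measure (LatticeSpace n)) [IsProbabilityMeasure m],
            (∀ h : SLR n, m.map (rmul h) = m) →
            0 < ∫ x, f x ∂m ∧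
            ∀ μ : ℕ → Measure (LatticeSpace n), (∀ i, IsProbabilityMeasure (μ i)) →
              (∀ i, μ i (@packet n (K i) _ (hK i) (σ i))ᶜ = 0) →
              (∀ i, ∫ x, f x ∂μ i = 0) ∧
              ¬ Tendsto (fun i => ∫ x, f x ∂μ i) atTop (𝓝 (∫ x, f x ∂m)) :=
  not_equidistributed n hn hcomp

end Vale.Agent.Results.P007.CompositeDegreeFailure
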